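import Vale.Agent.P011.E6O.H370.T2

/-!
The hermitian form on the line `I`.
-/

namespace Vale.Agent.P011.E6X.H370

open Vale.Agent.P011.MPQ Vale.Agent.P011.D4 Vale.Agent.P011.D4.Oct Vale.Agent.P011.E6
open Vale.Agent.P011.E6O Vale.Agent.P011.E6O.H370
open Matrix

variable {k E : Type} [Field k] [Field E] [Algebra k E] {ρ σ : E ≃ₐ[k] E} {g : Fin 3 → Eˣ}
  {a b c : kˣ} {al : E} (h2 : (2 : E) ≠ 0) (hal : al ^ 2 = algebraMap k E a)

/-- The weights of the off-diagonal entries. -/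
def wG (g : Fin 3 → Eˣ) : Fin 3 → E := ![(g 1 : E) * g 2, (g 2 : E) * g 0, (g 0 : E) * g 1]

include h2 hal

theorem bil_pt (hσal : σ al = -al) (p q p' q' : E) :
    bil (⟨0, mkq (up E a) (up E b) al p 0 q 0⟩ : OctL E a b c)
      (omap σ (⟨0, mkq (up E a) (up E b) al p' 0 q' 0⟩ : OctL E a b c)) =
      -((up E c : Eˣ) : E) * (p * σ p' - (up E b : Eˣ) * (q * σ q')) := by
  have hal' : al ^ 2 = ((up E a : Eˣ) : E) := hal
  obtain ⟨f1, f2, f3, f4⟩ := mkq_co (b := up E b) h2 hal' p 0 q 0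
  obtain ⟨e1, e2, e3, e4⟩ := mkq_co (b := up E b) h2 hal' p' 0 q' 0
  have s1 : ∀ x : Qt (up E a) (up E b), ca al (qmap σ x) = σ (cb al x) := fun x => by
    simp only [ca, cb, qmap, map_sub, map_mul, hσal]; ring
  have s2 : ∀ x : Qt (up E a) (up E b), cb al (qmap σ x) = σ (ca al x) := fun x => by
    simp only [ca, cb, qmap, map_add, map_mul, hσal]; ring
  have s3 : ∀ x : Qt (up E a) (up E b), cg al (qmap σ x) = σ (cd al x) := fun x => by
    simp only [cg, cd, qmap, map_sub, map_mul, hσal]; ring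
  have s4 : ∀ x : Qt (up E a) (up E b), cd al (qmap σ x) = σ (cg al x) := fun x => by
    simp only [cg, cd, qmap, map_add, map_mul, hσal]; ring
  have hn : ∀ q : Qt (up E a) (up E b), nrd q = ca al q * cb al q -
      ((up E b : Eˣ) : E) * (cg al q * cd al q) := fun q => nrd_co hal' q
  have z0 : nrd (0 : Qt (up E a) (up E b)) = 0 := by simp [nrd]
  simp only [bil, Oct.norm, omap, fst_add, snd_add, qmap_zero, add_zero, z0, hn, ca_add, cb_add,
    cg_add, cd_add, s1, s2, s3, s4, f1, f2, f3, f4, e1, e2, e3, e4, map_zero]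
  ring

/-- The hermitian form on the line. -/
theorem her_pt (hσal : σ al = -al) (s t s' t' : Fin 3 → E) :
    her σ g (pt al a b c s t) (pt al a b c s' t') =
      -((up E c : Eˣ) : E) * ∑ i, wG g i * (s i * σ (s' i) - (up E b : Eˣ) * (t i * σ (t' i))) := by
  have h := fun i => bil_pt (σ := σ) (b := b) (c := c) h2 hal hσal (s i) (t i) (s' i) (t' i)
  rw [Fin.sum_univ_three]
  simp only [her, Alb.tf, Alb.wt, amap, pt, bil_smul_left, h, wG, map_zero, mul_zero, zero_add,
    Matrix.cons_val_zero, Matrix.cons_val_one, Matrix.cons_val]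
  ring

end Vale.Agent.P011.E6X.H370
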