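import Vale.Agent.P011.E6X.H370.Sgn
import Vale.Agent.P011.E6O.H370.T3

/-!
A point of the line `I` is moved to a point which is defined over the centre.
-/

namespace Vale.Agent.P011.E6X.H370

open Vale.Agent.P011.MPQ Vale.Agent.P011.D4 Vale.Agent.P011.D4.Oct Vale.Agent.P011.E6
open Vale.Agent.P011.E6O Vale.Agent.P011.E6O.H370
open Vale.Agent.P011.E6I (MQ toMQ)
open Vale.Agent.P011.E6O.H68 (Hf Hi Hi_Hf Hf_Hi th spq det_spq th_apply nu_th spq_apply)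
open Vale.Agent.P011S (redNorm)
open Matrix

variable {k E : Type} [Field k] [Field E] [Algebra k E] {ρ σ : E ≃ₐ[k] E} {lam : Eˣ}
  {g : Fin 3 → Eˣ} {a b c : kˣ} {al : E}

/-- The form of the cyclic algebra in coordinates. -/
theorem f_form {K : Type} [Field K] [StarRing K] [Algebra K E] (S : Dat K E) {β : K}
    (eqs : ∀ x, S.s x = σ x) (eqG : S.G = g) (eqβ : algebraMap K E β = up E b) (z₁ z₂ : S.D)
    (i j : Fin 3) :
    S.f (z₁ * star z₁ - β • (z₂ * star z₂)) i j = Fm σ g b (S.f z₁) (S.f z₂) i j * g j := by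
  rw [map_sub, map_smul, map_mul, map_mul, S.f_star, S.f_star, Matrix.sub_apply,
    Matrix.smul_apply, Matrix.mul_apply, Matrix.mul_apply, Fm_apply]
  simp only [S.dag_apply, Fin.sum_univ_three, eqs, Algebra.smul_def, eqβ,
    Units.val_inv_eq_inv_val, eqG]
  ring

/-- A point of the line `I` is moved to a point which is defined over the centre. -/
theorem move_of (h2 : (2 : E) ≠ 0) (hal : al ^ 2 = algebraMap k E a) (hρal : ρ al = al)
    (hσal : σ al = -al) (hdiv : Division a b c)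
    (hkal : ∀ x, ρ x = x → ∃ x₀ x₁ : k, x = algebraMap k E x₀ + al * algebraMap k E x₁)
    {K : Type} [Field K] [StarRing K] [Algebra K E] (S : Dat K E) {β : K}
    (eqρ : ∀ x, S.ρ x = ρ x) (eqs : ∀ x, S.s x = σ x) (eqlam : algebraMap K E (S.lam : K) = lam)
    (eqG : S.G = g) (fix' : ∀ t : K, ρ (algebraMap K E t) = algebraMap K E t)
    (eqβ : algebraMap K E β = up E b) (β0 : β ≠ 0)
    {R : Subgroup (AlbL E a b c ≃ₗ[E] AlbL E a b c)}
    (hSU : ∀ {m : (MQ E a b)ˣ}, InD ρ lam (m : MQ E a b) → IsUn σ g 1 (m : MQ E a b) →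
      nu (m : MQ E a b) = 1 → ∀ {φ : AlbL E a b c ≃ₗ[E] AlbL E a b c},
        (∀ x, φ x = Alb.act m 1 x) → φ ∈ R)
    {z₁ z₂ : S.D} {m : Matrix (Fin 2) (Fin 2) S.D} {δ : S.D} {κ₁ κ₂ : K}
    (hδ : δ ≠ 0) (hκ : κ₁ ≠ 0 ∨ κ₂ ≠ 0) (hm : mᴴ * Hf S β * m = Hf S β)
    (hnrm : redNorm S.f (Fin 2) m = 1)
    (e1 : z₁ * m 0 0 + z₂ * m 1 0 = δ * algebraMap K S.D κ₁)
    (e2 : z₁ * m 0 1 + z₂ * m 1 1 = δ * algebraMap K S.D κ₂)
    {A : Submodule E (AlbL E a b c)}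
    (hAx : ∀ x, x ∈ A ↔ ∃ r : Fin 3 → E, x = pt al a b c (r ᵥ* S.f z₁) (r ᵥ* S.f z₂)) :
    ∃ (n : AlbL E a b c ≃ₗ[E] AlbL E a b c) (M : (MQ E a b)ˣ) (κ : Qt a b), n ∈ R ∧
      (∀ x, n x = Alb.act M 1 x) ∧ (∀ x, n.symm x = Alb.act M⁻¹ 1 x) ∧ κ ≠ 0 ∧ nrd κ ≠ 0 ∧
      A.map (n : AlbL E a b c →ₗ[E] AlbL E a b c) =
        Apt (⟨0, ep al * qup E κ⟩ : OctL E a b c) := by
  subst eqG
  have hα : al * al = up E a := by rw [← pow_two]; exact hal
  have hsb : S.s (up E b : E) = up E b := by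
    rw [eqs]; exact σ.commutes _
  have hsα : S.s al = -al := by rw [eqs, hσal]
  obtain ⟨y, hy⟩ : ∃ y : Matrix (Fin 2) (Fin 2) S.D, y = Hi S β * mᴴ * Hf S β := ⟨_, rfl⟩
  have hym : y * m = 1 := by
    rw [hy, Matrix.mul_assoc, Matrix.mul_assoc, ← Matrix.mul_assoc mᴴ, hm, Hi_Hf S β0]
  have hmy : m * y = 1 := mul_eq_one_comm.mp hym
  have hyS : yᴴ * Hf S β * y = Hf S β := by
    have h1 : yᴴ * mᴴ = 1 := by
      rw [← Matrix.conjTranspose_mul, hmy, Matrix.conjTranspose_one]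
    calc yᴴ * Hf S β * y = yᴴ * (mᴴ * Hf S β * m) * y := by rw [hm]
      _ = (yᴴ * mᴴ) * Hf S β * (m * y) := by simp only [Matrix.mul_assoc]
      _ = Hf S β := by rw [h1, hmy, Matrix.one_mul, Matrix.mul_one]
  obtain ⟨M, hM⟩ : ∃ M : (MQ E a b)ˣ, (M : MQ E a b) = th S (spq (b := up E b) h2 hα) m ∧
      ((M⁻¹ : (MQ E a b)ˣ) : MQ E a b) = th S (spq (b := up E b) h2 hα) y :=
    ⟨⟨th S (spq (b := up E b) h2 hα) m, th S (spq (b := up E b) h2 hα) y,
      by rw [← map_mul, hmy, map_one], by rw [← map_mul, hym, map_one]⟩, rfl, rfl⟩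
  have hNn : nu ((M⁻¹ : (MQ E a b)ˣ) : MQ E a b) = 1 := by
    have h3 : nu (M : MQ E a b) = 1 := by
      rw [hM.1, nu_th S _ h2 (det_spq h2 hα), hnrm]
    have h4 := H68.nu_mulS (spq (b := up E b) h2 hα) h2 (M : MQ E a b)
      ((M⁻¹ : (MQ E a b)ˣ) : MQ E a b)
    rw [Units.mul_inv, H64.nu_one, h3, one_mul] at h4
    exact h4.symm
  have hND : InD ρ lam ((M⁻¹ : (MQ E a b)ˣ) : MQ E a b) := by
    rw [hM.2]
    exact H68.thD_mem h2 hα S eqρ eqlam hρal y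
  have hNU : IsUn σ S.G 1 ((M⁻¹ : (MQ E a b)ˣ) : MQ E a b) := by
    rw [H68.isUn_iff eqs, hM.2, H68.mdag_mul_iff S h2 hα hsα eqβ hsb]
    exact hyS
  have hn1 : (H64.actL h2 M⁻¹ 1 : AlbL E a b c ≃ₗ[E] AlbL E a b c) ∈ R :=
    hSU hND hNU hNn fun x => by rw [H64.actL_apply, Units.val_one]
  -- the quaternion
  obtain ⟨x0, x1, hx⟩ := hkal _ (fix' κ₁)
  obtain ⟨y0, y1, hy'⟩ := hkal _ (fix' κ₂)
  obtain ⟨κ, hκd⟩ : ∃ κ : Qt a b, κ = ⟨x0, x1, y0, y1⟩ := ⟨_, rfl⟩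
  have hκ0 : κ ≠ 0 := by
    intro h0
    rw [hκd] at h0
    have a1 : x0 = 0 := congrArg QuaternionAlgebra.re h0
    have a2 : x1 = 0 := congrArg QuaternionAlgebra.imI h0
    have a3 : y0 = 0 := congrArg QuaternionAlgebra.imJ h0
    have a4 : y1 = 0 := congrArg QuaternionAlgebra.imK h0
    rw [a1, a2, map_zero, mul_zero, add_zero] at hx
    rw [a3, a4, map_zero, mul_zero, add_zero] at hy'
    rcases hκ with h | h
    · exact h ((map_eq_zero _).mp hx)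
    · exact h ((map_eq_zero _).mp hy')
  have hκn : nrd κ ≠ 0 := by
    intro h0
    have h1 := hdiv ⟨κ, 0⟩ (by
      rw [Oct.norm, h0]
      simp [nrd])
    exact hκ0 (congrArg Oct.fst h1)
  have hcu : mkq (up E a) (up E b) al (algebraMap K E κ₁) 0 (algebraMap K E κ₂) 0 =
      ep al * qup E κ := by
    rw [ep_mul h2 hal]
    have b1 : ca al (qup E κ : Qt (up E a) (up E b)) = algebraMap K E κ₁ := by
      rw [hx, hκd]; rfl
    have b2 : cg al (qup E κ : Qt (up E a) (up E b)) = algebraMap K E κ₂ := by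
      rw [hy', hκd]; rfl
    rw [b1, b2]
  -- the image of the point
  have hmap : A.map ((H64.actL h2 M⁻¹ 1 : AlbL E a b c ≃ₗ[E] AlbL E a b c) :
      AlbL E a b c →ₗ[E] AlbL E a b c) = Apt (⟨0, ep al * qup E κ⟩ : OctL E a b c) := by
    have hact : ∀ r : Fin 3 → E, Alb.act M⁻¹ 1 (pt al a b c (r ᵥ* S.f z₁) (r ᵥ* S.f z₂)) =
        pt al a b c (algebraMap K E κ₁ • (r ᵥ* S.f δ)) (algebraMap K E κ₂ • (r ᵥ* S.f δ)) := by
      intro r
      rw [act_pt (b := b) (c := c) h2 hal (F := fun p q => S.f (m p q)) hα (fun i j p q => by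
        rw [hM.1]; exact th_apply S _ m i j p q)]
      have e3 : ∀ (z : S.D) (t : K), S.f (z * algebraMap K S.D t) = algebraMap K E t • S.f z := by
        intro z t
        rw [← Algebra.commutes, ← Algebra.smul_def, map_smul]
        ext i j
        rw [Matrix.smul_apply, Matrix.smul_apply, Algebra.smul_def, smul_eq_mul]
      have e4 : S.f z₁ * S.f (m 0 0) + S.f z₂ * S.f (m 1 0) = algebraMap K E κ₁ • S.f δ := by
        rw [← e3, ← e1, map_add, map_mul, map_mul]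
      have e5 : S.f z₁ * S.f (m 0 1) + S.f z₂ * S.f (m 1 1) = algebraMap K E κ₂ • S.f δ := by
        rw [← e3, ← e2, map_add, map_mul, map_mul]
      rw [Matrix.vecMul_vecMul, Matrix.vecMul_vecMul, Matrix.vecMul_vecMul, Matrix.vecMul_vecMul,
        ← Matrix.vecMul_add, ← Matrix.vecMul_add, e4, e5, Matrix.vecMul_smul, Matrix.vecMul_smul]
    have hpt : ∀ r : Fin 3 → E, pt al a b c (algebraMap K E κ₁ • r) (algebraMap K E κ₂ • r) =
        ⟨0, 0, 0, r 0 • ⟨0, ep al * qup E κ⟩, r 1 • ⟨0, ep al * qup E κ⟩,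
          r 2 • ⟨0, ep al * qup E κ⟩⟩ := by
      intro r
      have h5 : ∀ t : E, mkq (up E a) (up E b) al (algebraMap K E κ₁ * t) 0
          (algebraMap K E κ₂ * t) 0 = t • (ep al * qup E κ) := by
        intro t
        rw [← hcu, mkq_sm]
      rw [pt]
      simp only [Pi.smul_apply, smul_eq_mul, h5]
      apply Alb.ext
      · rfl
      · rfl
      · rfl
      all_goals
        apply Oct.ext
        · change 0 = _ • (0 : Qt (up E a) (up E b))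
          rw [smul_zero]
        · rfl
    have hdet : IsUnit (S.f δ).det := isUnit_iff_ne_zero.mpr (S.det_ne hδ)
    ext x
    rw [Submodule.mem_map, mem_Apt]
    constructor
    · rintro ⟨z, hz, rfl⟩
      obtain ⟨r, rfl⟩ := (hAx z).mp hz
      refine ⟨r ᵥ* S.f δ, ?_⟩
      rw [← hpt, ← hact]
      rfl
    · rintro ⟨r, rfl⟩
      refine ⟨pt al a b c ((r ᵥ* (S.f δ)⁻¹) ᵥ* S.f z₁) ((r ᵥ* (S.f δ)⁻¹) ᵥ* S.f z₂),
        (hAx _).mpr ⟨_, rfl⟩, ?_⟩
      change Alb.act M⁻¹ 1 _ = _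
      rw [hact, Matrix.vecMul_vecMul, Matrix.nonsing_inv_mul _ hdet, Matrix.vecMul_one, hpt]
  refine ⟨H64.actL h2 M⁻¹ 1, M⁻¹, κ, hn1, fun x => ?_, fun x => ?_, hκ0, hκn, hmap⟩
  · rw [H64.actL_apply, Units.val_one]
  · change Alb.act M⁻¹⁻¹ (1⁻¹ : (Qt (up E a) (up E b))ˣ) x = _
    rw [inv_one, Units.val_one]

end Vale.Agent.P011.E6X.H370
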