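import Vale.Agent.P011.E6X.H370.Gram
import Vale.Agent.P011.E6X.XDefs
import Vale.Agent.P011.E6O.H24.Conj
import Vale.Agent.P011.E6O.H370.Tm

/-!
The opposite point is transported by the maps of the second factor.
-/

namespace Vale.Agent.P011.E6X.H370

open Vale.Agent.P011.MPQ Vale.Agent.P011.D4 Vale.Agent.P011.D4.Oct Vale.Agent.P011.E6
open Vale.Agent.P011.E6O Vale.Agent.P011.E6O.H370
open Vale.Agent.P011.E6I (MQ toMQ)

variable {k E : Type} [Field k] [Field E] [Algebra k E] {ρ σ : E ≃ₐ[k] E} {g : Fin 3 → Eˣ}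
  {a b c : kˣ} {al : E}

theorem mem_opp {U : Submodule E (AlbL E a b c)}
    {y : AlbL E a b c} : y ∈ opp σ g al U ↔
      y ∈ Iln c (ep al) ∧ ∀ x ∈ U, her σ g (jl x) y = 0 := Iff.rfl

theorem mat_Iln {e : Qt (up E a) (up E b)} {x : AlbL E a b c} (hx : x ∈ Iln c e) :
    Alb.mat x = 0 := by
  obtain ⟨q, rfl⟩ := hx
  ext1 i j
  fin_cases i <;> fin_cases j <;> simp [Alb.mat] <;> rfl

/-- The action on the elements without matrix part. -/
theorem act_mat_zero (M : (MQ E a b)ˣ) {x : AlbL E a b c} (hx : Alb.mat x = 0) :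
    Alb.act M 1 x = ⟨0, 0, 0,
      ⟨0, Matrix.vecMul (Alb.vec x) ((M⁻¹ : (MQ E a b)ˣ) : MQ E a b) 0⟩,
      ⟨0, Matrix.vecMul (Alb.vec x) ((M⁻¹ : (MQ E a b)ˣ) : MQ E a b) 1⟩,
      ⟨0, Matrix.vecMul (Alb.vec x) ((M⁻¹ : (MQ E a b)ˣ) : MQ E a b) 2⟩⟩ := by
  rw [Alb.act, hx, Matrix.mul_zero, Matrix.zero_mul]
  simp only [one_mul]
  rfl

theorem vec_mk (p q r : Qt (up E a) (up E b)) :
    Alb.vec (⟨0, 0, 0, ⟨0, p⟩, ⟨0, q⟩, ⟨0, r⟩⟩ : AlbL E a b c) = ![p, q, r] := by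
  funext i
  fin_cases i <;> rfl

theorem act_Iln (M : (MQ E a b)ˣ) {e : Qt (up E a) (up E b)} {x : AlbL E a b c}
    (hx : x ∈ Iln c e) : Alb.act M 1 x ∈ Iln c e := by
  rw [act_mat_zero M (mat_Iln hx)]
  obtain ⟨q, rfl⟩ := hx
  refine ⟨fun i => ∑ j, q j * ((M⁻¹ : (MQ E a b)ˣ) : MQ E a b) j i, ?_⟩
  have h : ∀ i, Matrix.vecMul (Alb.vec (⟨0, 0, 0, ⟨0, e * q 0⟩, ⟨0, e * q 1⟩, ⟨0, e * q 2⟩⟩ :
      AlbL E a b c)) ((M⁻¹ : (MQ E a b)ˣ) : MQ E a b) i =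
      e * ∑ j, q j * ((M⁻¹ : (MQ E a b)ˣ) : MQ E a b) j i := by
    intro i
    rw [vec_mk, Matrix.vecMul, dotProduct, Fin.sum_univ_three, Fin.sum_univ_three]
    simp only [Matrix.cons_val_zero, Matrix.cons_val_one, Matrix.cons_val, mul_add, mul_assoc]
  rw [h, h, h]

theorem mat_jl (x : AlbL E a b c) : Alb.mat (jl x) = 0 := by
  ext1 i j
  fin_cases i <;> fin_cases j <;> simp [Alb.mat, jl] <;> rfl

theorem act_jl (M : (MQ E a b)ˣ) {x : AlbL E a b c} (hx : Alb.mat x = 0) :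
    Alb.act M 1 (jl x) = jl (Alb.act M 1 x) := by
  rw [act_mat_zero M hx, act_mat_zero M (mat_jl x)]
  have h : ∀ i, Matrix.vecMul (Alb.vec (jl x)) ((M⁻¹ : (MQ E a b)ˣ) : MQ E a b) i =
      ⟨0, 0, 1, 0⟩ * Matrix.vecMul (Alb.vec x) ((M⁻¹ : (MQ E a b)ˣ) : MQ E a b) i := by
    intro i
    have h1 : ∀ j, Alb.vec (jl x) j = (⟨0, 0, 1, 0⟩ : Qt (up E a) (up E b)) * Alb.vec x j := by
      intro j
      fin_cases j <;> rfl
    rw [Matrix.vecMul, Matrix.vecMul, dotProduct, dotProduct, Finset.mul_sum]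
    exact Finset.sum_congr rfl fun j _ => by rw [h1, mul_assoc]
  rw [h, h, h]
  rfl

/-- The opposite point is transported. -/
theorem opp_map {n : AlbL E a b c ≃ₗ[E] AlbL E a b c} {U : Submodule E (AlbL E a b c)}
    (hj : ∀ x ∈ U, n (jl x) = jl (n x))
    (hI : ∀ x ∈ Iln c (ep al : Qt (up E a) (up E b)), n x ∈ Iln c (ep al))
    (hI' : ∀ x ∈ Iln c (ep al : Qt (up E a) (up E b)), n.symm x ∈ Iln c (ep al))
    (hh : ∀ x y, her σ g (n x) (n y) = her σ g x y) :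
    (opp σ g al U).map (n : AlbL E a b c →ₗ[E] AlbL E a b c) =
      opp σ g al (U.map (n : AlbL E a b c →ₗ[E] AlbL E a b c)) := by
  ext y
  constructor
  · rintro ⟨y, ⟨h1, h2⟩, rfl⟩
    refine ⟨hI _ h1, ?_⟩
    rintro _ ⟨x, hx, rfl⟩
    change her σ g (jl (n x)) (n y) = 0
    rw [← hj x hx, hh]
    exact h2 x hx
  · rintro ⟨h1, h2⟩
    refine ⟨n.symm y, ⟨hI' _ h1, ?_⟩, n.apply_symm_apply y⟩
    intro x hx
    rw [← hh, n.apply_symm_apply, hj x hx]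
    exact h2 _ ⟨x, hx, rfl⟩

/-! The automorphism `i ↦ -i`. -/

theorem ai_mem {x : AlbL E a b c} (hx : x ∈ Iln c (E6O.em al : Qt (up E a) (up E b))) :
    ai E a b c x ∈ Iln c (ep al) := by
  obtain ⟨q, rfl⟩ := hx
  refine ⟨fun i => qi (q i), ?_⟩
  simp only [ai_apply, oi_apply, qi_zero, qi_mul, qi_em]

theorem ai_mem' {x : AlbL E a b c} (hx : x ∈ Iln c (ep al : Qt (up E a) (up E b))) :
    ai E a b c x ∈ Iln c (E6O.em al) := by
  obtain ⟨q, rfl⟩ := hx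
  refine ⟨fun i => qi (q i), ?_⟩
  simp only [ai_apply, oi_apply, qi_zero, qi_mul, qi_ep]

theorem ai_jl (x : AlbL E a b c) : ai E a b c (jl x) = jl (ai E a b c x) := by
  have h : ∀ q : Qt (up E a) (up E b), qi (jq q) = jq (qi q) := by
    intro q
    rw [jq, qi_mul, jq]
    congr 1
    ext <;> simp [qi]
  simp only [ai_apply, jl, oi_apply, qi_zero, h]

/-- The opposite point is transported by the conjugate of a map of the second factor. -/
theorem opp_map_ai {m : AlbL E a b c ≃ₗ[E] AlbL E a b c} {M : (MQ E a b)ˣ}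
    (hn : ∀ x, m x = Alb.act M 1 x) (hn' : ∀ x, m.symm x = Alb.act M⁻¹ 1 x)
    {n : AlbL E a b c ≃ₗ[E] AlbL E a b c} (hnm : n = ai E a b c * m * ai E a b c)
    (hh : ∀ x y, her σ g (n x) (n y) = her σ g x y)
    {U : Submodule E (AlbL E a b c)} (hU : U ≤ Iln c (E6O.em al)) :
    (opp σ g al U).map (n : AlbL E a b c →ₗ[E] AlbL E a b c) =
      opp σ g al (U.map (n : AlbL E a b c →ₗ[E] AlbL E a b c)) := by
  have e : ∀ x, n x = ai E a b c (m (ai E a b c x)) := fun x => by rw [hnm]; rfl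
  have e' : ∀ x, n.symm x = ai E a b c (m.symm (ai E a b c x)) := by
    intro x
    rw [LinearEquiv.symm_apply_eq, e, ai_ai, m.apply_symm_apply, ai_ai]
  apply opp_map
  · intro x hx
    rw [e, e, ai_jl, hn, hn, act_jl M (mat_Iln (ai_mem (hU hx))), ai_jl]
  · intro x hx
    rw [e, hn]
    exact ai_mem (act_Iln M (ai_mem' hx))
  · intro x hx
    rw [e', hn']
    exact ai_mem (act_Iln M⁻¹ (ai_mem' hx))
  · exact hh

end Vale.Agent.P011.E6X.H370
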