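import Vale.Agent.P011.E6X.H370.Opp
import Vale.Agent.P011.E6O.H370.T3

/-!
The opposite point of a rational point.
-/

namespace Vale.Agent.P011.E6X.H370

open Vale.Agent.P011.MPQ Vale.Agent.P011.D4 Vale.Agent.P011.D4.Oct Vale.Agent.P011.E6
open Vale.Agent.P011.E6O Vale.Agent.P011.E6O.H370
open Vale.Agent.P011.E6I (MQ toMQ)

variable {k E : Type} [Field k] [Field E] [Algebra k E] {ρ σ : E ≃ₐ[k] E} {g : Fin 3 → Eˣ}
  {a b c : kˣ} {al : E} (h2 : (2 : E) ≠ 0) (hal : al ^ 2 = algebraMap k E a)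
include h2 hal

theorem em_co : ca al (E6O.em al : Qt (up E a) (up E b)) = 0 ∧
    cb al (E6O.em al : Qt (up E a) (up E b)) = 1 ∧
    cg al (E6O.em al : Qt (up E a) (up E b)) = 0 ∧
    cd al (E6O.em al : Qt (up E a) (up E b)) = 0 := by
  have h0 := al_ne' hal
  refine ⟨?_, ?_, ?_, ?_⟩
  · simp only [ca, E6O.em]
    field_simp
    norm_num
  · simp only [cb, E6O.em]
    field_simp
    norm_num
  · simp only [cg, E6O.em]
    ring
  · simp only [cd, E6O.em]
    ring

theorem jq_em (x : Qt (up E a) (up E b)) (r : E) :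
    jq (r • (E6O.em al * x)) = mkq (up E a) (up E b) al
      (((up E b : Eˣ) : E) * cd al x * r) 0 (cb al x * r) 0 := by
  have hal' : al ^ 2 = ((up E a : Eˣ) : E) := hal
  obtain ⟨e1, e2, e3, e4⟩ := em_co (b := b) h2 hal
  obtain ⟨f1, f2, f3, f4⟩ := mkq_co (b := up E b) h2 hal'
    (((up E b : Eˣ) : E) * cd al x * r) 0 (cb al x * r) 0
  have hj : ca al (⟨0, 0, 1, 0⟩ : Qt (up E a) (up E b)) = 0 ∧
      cb al (⟨0, 0, 1, 0⟩ : Qt (up E a) (up E b)) = 0 ∧
      cg al (⟨0, 0, 1, 0⟩ : Qt (up E a) (up E b)) = 1 ∧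
      cd al (⟨0, 0, 1, 0⟩ : Qt (up E a) (up E b)) = 1 := by
    refine ⟨?_, ?_, ?_, ?_⟩ <;> simp [ca, cb, cg, cd]
  obtain ⟨j1, j2, j3, j4⟩ := hj
  rw [jq]
  apply ext_co h2 hal'
  · rw [f1, ca_mul hal', ca_smul, cd_smul, ca_mul hal', cd_mul hal', e1, e2, e3, e4, j1, j3]
    ring
  · rw [f2, cb_mul hal', cb_smul, cg_smul, cb_mul hal', cg_mul hal', e1, e2, e3, e4, j2, j4]
    ring
  · rw [f3, cg_mul hal', cg_smul, cb_smul, cg_mul hal', cb_mul hal', e1, e2, e3, e4, j1, j3]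
    ring
  · rw [f4, cd_mul hal', cd_smul, ca_smul, cd_mul hal', ca_mul hal', e1, e2, e3, e4, j2, j4]
    ring

theorem jl_em (x : Qt (up E a) (up E b)) (r : Fin 3 → E) :
    jl (⟨0, 0, 0, r 0 • ⟨0, E6O.em al * x⟩, r 1 • ⟨0, E6O.em al * x⟩,
      r 2 • ⟨0, E6O.em al * x⟩⟩ : AlbL E a b c) =
      pt al a b c (fun i => ((up E b : Eˣ) : E) * cd al x * r i) (fun i => cb al x * r i) := by
  rw [pt, ← jq_em h2 hal, ← jq_em h2 hal, ← jq_em h2 hal]
  rfl

theorem pt_ep (x : Qt (up E a) (up E b)) (r : Fin 3 → E) :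
    pt al a b c (fun i => r i * ca al x) (fun i => r i * cg al x) =
      ⟨0, 0, 0, r 0 • ⟨0, ep al * x⟩, r 1 • ⟨0, ep al * x⟩, r 2 • ⟨0, ep al * x⟩⟩ := by
  have h : ∀ t : E, mkq (up E a) (up E b) al (t * ca al x) 0 (t * cg al x) 0 =
      t • (ep al * x) := by
    intro t
    rw [ep_mul h2 hal, ← mkq_sm, mul_comm t, mul_comm t]
  rw [pt]
  simp only [h]
  apply Alb.ext
  · rfl
  · rfl
  · rfl
  all_goals
    apply Oct.ext
    · change 0 = _ • (0 : Qt (up E a) (up E b))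
      rw [smul_zero]
    · rfl

/-- The opposite point of a rational point. -/
theorem opp_std (hσal : σ al = -al) {κ : Qt a b} (hκ : nrd κ ≠ 0) :
    opp σ g al (Apt (⟨0, E6O.em al * qup E κ⟩ : OctL E a b c)) =
      Apt (⟨0, ep al * qup E κ⟩ : OctL E a b c) := by
  have hal' : al ^ 2 = ((up E a : Eˣ) : E) := hal
  have hc : ((up E c : Eˣ) : E) ≠ 0 := (up E c).ne_zero
  have hb : ((up E b : Eˣ) : E) ≠ 0 := (up E b).ne_zero
  have hbσ : σ ((up E b : Eˣ) : E) = ((up E b : Eˣ) : E) := σ.commutes _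
  have g0 := (g 0).ne_zero
  have g1 := (g 1).ne_zero
  have g2 := (g 2).ne_zero
  obtain ⟨p, hp⟩ : ∃ p, p = ca al (qup E κ : Qt (up E a) (up E b)) := ⟨_, rfl⟩
  obtain ⟨q, hq⟩ : ∃ q, q = cg al (qup E κ : Qt (up E a) (up E b)) := ⟨_, rfl⟩
  have hp' : cb al (qup E κ : Qt (up E a) (up E b)) = σ p := by
    rw [hp]
    simp only [ca, cb, qup, map_add, map_mul, hσal, AlgEquiv.commutes]; ring
  have hq' : cd al (qup E κ : Qt (up E a) (up E b)) = σ q := by
    rw [hq]
    simp only [cg, cd, qup, map_add, map_mul, hσal, AlgEquiv.commutes]; ring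
  have hpq : p ≠ 0 ∨ q ≠ 0 := by
    by_contra h
    push Not at h
    apply hκ
    have h1 : nrd (qup E κ : Qt (up E a) (up E b)) = 0 := by
      rw [nrd_co hal', ← hp, ← hq, h.1, h.2]
      ring
    have h3 : nrd (qup E κ : Qt (up E a) (up E b)) = algebraMap k E (nrd κ) := by
      simp only [nrd, qup, up, Units.coe_map, MonoidHom.coe_coe, map_sub, map_add, map_mul,
        map_pow]
    rw [h3] at h1
    exact (map_eq_zero _).mp h1
  have key : ∀ s t r : Fin 3 → E,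
      her σ g (jl (⟨0, 0, 0, r 0 • ⟨0, E6O.em al * qup E κ⟩, r 1 • ⟨0, E6O.em al * qup E κ⟩,
        r 2 • ⟨0, E6O.em al * qup E κ⟩⟩ : AlbL E a b c)) (pt al a b c s t) =
      -((up E c : Eˣ) : E) * (up E b : Eˣ) *
        ((g 1 * g 2) * r 0 * σ (q * s 0 - p * t 0) +
          (g 2 * g 0) * r 1 * σ (q * s 1 - p * t 1) +
          (g 0 * g 1) * r 2 * σ (q * s 2 - p * t 2)) := by
    intro s t r
    rw [jl_em h2 hal, her_pt h2 hal hσal, Fin.sum_univ_three, hp', hq']
    simp only [wG, map_sub, map_mul, Matrix.cons_val_zero, Matrix.cons_val_one, Matrix.cons_val]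
    ring
  ext y
  constructor
  · rintro ⟨hy, h⟩
    obtain ⟨s, t, rfl⟩ : ∃ s t, y = pt al a b c s t := ⟨_, _, eq_pt h2 hal hy⟩
    have k0 := (key s t ![1, 0, 0]).symm.trans (h _ ⟨![1, 0, 0], rfl⟩)
    have k1 := (key s t ![0, 1, 0]).symm.trans (h _ ⟨![0, 1, 0], rfl⟩)
    have k2 := (key s t ![0, 0, 1]).symm.trans (h _ ⟨![0, 0, 1], rfl⟩)
    simp only [Matrix.cons_val_zero, Matrix.cons_val_one, Matrix.cons_val,
      mul_zero, zero_mul, add_zero, zero_add, mul_one, mul_eq_zero, neg_eq_zero, hc, hb, g0, g1,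
      g2, false_or, or_self, map_eq_zero] at k0 k1 k2
    have hr : ∀ x y : E, q * x - p * y = 0 → ∃ r : E, x = r * p ∧ y = r * q := by
      intro x y hx
      rcases hpq with h0 | h0
      · refine ⟨x / p, by field_simp, ?_⟩
        field_simp
        linear_combination -hx
      · refine ⟨y / q, ?_, by field_simp⟩
        field_simp
        linear_combination hx
    obtain ⟨r0, e0, f0⟩ := hr _ _ k0
    obtain ⟨r1, e1, f1⟩ := hr _ _ k1
    obtain ⟨r2, e2, f2⟩ := hr _ _ k2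
    refine ⟨![r0, r1, r2], ?_⟩
    rw [← pt_ep h2 hal, ← hp, ← hq]
    congr 1
    · funext i
      fin_cases i
      · exact e0
      · exact e1
      · exact e2
    · funext i
      fin_cases i
      · exact f0
      · exact f1
      · exact f2
  · rintro ⟨r, rfl⟩
    refine ⟨⟨fun i => r i • qup E κ, ?_⟩, ?_⟩
    · apply Alb.ext
      · rfl
      · rfl
      · rfl
      all_goals
        apply Oct.ext
        · change _ • (0 : Qt (up E a) (up E b)) = 0
          rw [smul_zero]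
        · change _ • (ep al * qup E κ) = ep al * _ • qup E κ
          rw [mul_smul_comm]
    · rintro _ ⟨t, rfl⟩
      rw [← pt_ep h2 hal, ← hp, ← hq, key]
      have h : ∀ i, q * (r i * p) - p * (r i * q) = 0 := fun i => by ring
      rw [h, h, h, map_zero]
      ring

end Vale.Agent.P011.E6X.H370
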