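import Vale.Agent.P011.E6X.H370.Gram
import Vale.Agent.P011.E6X.XDefs

/-!
The sign condition of a point of the line `I`.
-/

namespace Vale.Agent.P011.E6X.H370

open Vale.Agent.P011.MPQ Vale.Agent.P011.D4 Vale.Agent.P011.D4.Oct Vale.Agent.P011.E6
open Vale.Agent.P011.E6O Vale.Agent.P011.E6O.H370
open Matrix

variable {k E : Type} [Field k] [Field E] [Algebra k E] {ρ σ : E ≃ₐ[k] E} {g : Fin 3 → Eˣ}
  {a b c : kˣ} {al : E}

/-- The form on the coordinates of the second factor. -/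
noncomputable def Fm (σ : E ≃ₐ[k] E) (g : Fin 3 → Eˣ) (b : kˣ) (Z1 Z2 : Matrix (Fin 3) (Fin 3) E) :
    Matrix (Fin 3) (Fin 3) E :=
  Z1 * diagonal (fun i => (g i : E)⁻¹) * (Z1.map σ)ᵀ -
    ((up E b : Eˣ) : E) • (Z2 * diagonal (fun i => (g i : E)⁻¹) * (Z2.map σ)ᵀ)

theorem Fm_apply (Z1 Z2 : Matrix (Fin 3) (Fin 3) E) (i j : Fin 3) :
    Fm σ g b Z1 Z2 i j = ∑ l, (g l : E)⁻¹ * (Z1 i l * σ (Z1 j l) -
      ((up E b : Eˣ) : E) * (Z2 i l * σ (Z2 j l))) := by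
  simp only [Fm, Matrix.sub_apply, Matrix.smul_apply, Matrix.mul_apply, Matrix.transpose_apply,
    Matrix.map_apply, Fin.sum_univ_three, Matrix.diagonal_apply, smul_eq_mul, Fin.isValue,
    if_true, if_false, Fin.reduceEq, mul_zero, add_zero, zero_add]
  ring

theorem Fm_mul (P Z1 Z2 : Matrix (Fin 3) (Fin 3) E) :
    P * Fm σ g b Z1 Z2 * (P.map σ)ᵀ = Fm σ g b (P * Z1) (P * Z2) := by
  have e : ∀ Z : Matrix (Fin 3) (Fin 3) E, ((P * Z).map σ)ᵀ = (Z.map σ)ᵀ * (P.map σ)ᵀ := by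
    intro Z
    rw [← Matrix.transpose_mul]
    congr 1
    exact Matrix.map_mul (f := (σ : E →+* E))
  rw [Fm, Fm, e, e, Matrix.mul_sub, Matrix.sub_mul, Matrix.mul_smul, Matrix.smul_mul]
  simp only [Matrix.mul_assoc]

section

variable (h2 : (2 : E) ≠ 0) (hal : al ^ 2 = algebraMap k E a)
include h2 hal

theorem gram_pt (hσal : σ al = -al) (P Z1 Z2 : Matrix (Fin 3) (Fin 3) E) (i j : Fin 3) :
    her σ g (pt al a b c (P i ᵥ* Z1) (P i ᵥ* Z2)) (pt al a b c (P j ᵥ* Z1) (P j ᵥ* Z2)) =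
      (-((up E c : Eˣ) : E) * ((g 0 : E) * g 1 * g 2)) *
        (P * Fm σ g b Z1 Z2 * (P.map σ)ᵀ) i j := by
  have g0 := (g 0).ne_zero
  have g1 := (g 1).ne_zero
  have g2 := (g 2).ne_zero
  rw [her_pt h2 hal hσal, Fm_mul, Fm_apply]
  simp only [Fin.sum_univ_three, wG, Matrix.cons_val_zero, Matrix.cons_val_one, Matrix.cons_val,
    Matrix.mul_apply_eq_vecMul]
  field_simp

end

theorem vk_eq {w : E →+* ℂ} (hw : SC σ w) (t : k) : w (algebraMap k E t) = ((vk w t : ℝ) : ℂ) := by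
  have h1 := hw (algebraMap k E t)
  rw [AlgEquiv.commutes] at h1
  obtain ⟨r, hr⟩ := Complex.conj_eq_iff_real.mp h1.symm
  rw [vk, hr, Complex.ofReal_re]

/-- The sign condition. -/
theorem sgn_of (h2 : (2 : E) ≠ 0) (hal : al ^ 2 = algebraMap k E a) (hσal : σ al = -al)
    {w : E →+* ℂ} (hw : SC σ w) {f : k} (hf : f ≠ 0)
    (hs : vk w (b : k) < 0 → 0 < vk w (-(c * f)))
    {Z1 Z2 : Matrix (Fin 3) (Fin 3) E} {A : Submodule E (AlbL E a b c)}
    (hAx : ∀ x, x ∈ A → ∃ r : Fin 3 → E, x = pt al a b c (r ᵥ* Z1) (r ᵥ* Z2))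
    (hT : TyAt σ g w f A) :
    ∃ (ε : ℝ) (Q : Matrix (Fin 3) (Fin 3) ℂ), ε ≠ 0 ∧
      ((w (algebraMap k E b)).re < 0 → 0 < ε) ∧ IsUnit Q ∧
      Q * ((ε : ℂ) • Matrix.diagonal (fun i => (w (g i))⁻¹)) * Qᴴ = (Fm σ g b Z1 Z2).map w := by
  obtain ⟨x, hx, Q, hQ, h⟩ := hT
  choose P hP using fun i => hAx (x i) (hx i)
  have hre := vk_eq hw
  have hf0 : vk w f ≠ 0 := by
    intro h0
    have h1 := hre f
    rw [h0, Complex.ofReal_zero] at h1
    exact hf ((map_eq_zero _).mp ((map_eq_zero _).mp h1))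
  have hc0 : vk w (c : k) ≠ 0 := by
    intro h0
    have h1 := hre c
    rw [h0, Complex.ofReal_zero] at h1
    exact c.ne_zero ((map_eq_zero _).mp ((map_eq_zero _).mp h1))
  have hg : ∀ i, w (g i) ≠ 0 := fun i => (map_ne_zero w).mpr (g i).ne_zero
  obtain ⟨Pw, hPw⟩ : ∃ Pw : Matrix (Fin 3) (Fin 3) ℂ, Pw = (Matrix.of P).map w := ⟨_, rfl⟩
  obtain ⟨F, hF⟩ : ∃ F : Matrix (Fin 3) (Fin 3) ℂ, F = (Fm σ g b Z1 Z2).map w := ⟨_, rfl⟩
  have hPH : Pwᴴ = (((Matrix.of P).map σ)ᵀ).map w := by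
    ext i j
    rw [hPw, Matrix.conjTranspose_apply, Matrix.map_apply, Matrix.map_apply,
      Matrix.transpose_apply, Matrix.map_apply, hw]
    rfl
  have hG : gram σ g w x = (-(vk w (c : k) : ℂ) * (w (g 0) * w (g 1) * w (g 2))) •
      (Pw * F * Pwᴴ) := by
    ext i j
    rw [gram, Matrix.of_apply, hP i, hP j]
    have h3 := gram_pt (c := c) (b := b) (g := g) h2 hal hσal (Matrix.of P) Z1 Z2 i j
    have h4 : Pw * F * Pwᴴ = ((Matrix.of P) * Fm σ g b Z1 Z2 * ((Matrix.of P).map σ)ᵀ).map w := by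
      rw [Matrix.map_mul, Matrix.map_mul, hPH, hPw, hF]
    rw [h4, Matrix.smul_apply, Matrix.map_apply, smul_eq_mul, ← hre]
    have h5 := congrArg w h3
    rw [map_mul, map_mul, map_mul, map_mul, map_neg] at h5
    exact h5
  have hgst : gst g w = (w (g 0) * w (g 1) * w (g 2)) •
      Matrix.diagonal (fun i => (w (g i))⁻¹) := by
    have h0 := hg 0
    have h1 := hg 1
    have h3 := hg 2
    rw [gst, ← Matrix.diagonal_smul]
    congr 1
    funext i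
    fin_cases i
    · change w (g 1 * g 2) = w (g 0) * w (g 1) * w (g 2) * (w (g 0))⁻¹
      rw [map_mul]
      field_simp
    · change w (g 2 * g 0) = w (g 0) * w (g 1) * w (g 2) * (w (g 1))⁻¹
      rw [map_mul]
      field_simp
    · change w (g 0 * g 1) = w (g 0) * w (g 1) * w (g 2) * (w (g 2))⁻¹
      rw [map_mul]
      field_simp
  obtain ⟨γ, hγ⟩ : ∃ γ : ℂ, γ = w (g 0) * w (g 1) * w (g 2) := ⟨_, rfl⟩
  have hγ0 : γ ≠ 0 := by
    rw [hγ]
    exact mul_ne_zero (mul_ne_zero (hg 0) (hg 1)) (hg 2)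
  obtain ⟨R, hR⟩ : ∃ R : Matrix (Fin 3) (Fin 3) ℂ, R = Q * Pw := ⟨_, rfl⟩
  obtain ⟨ε, hε⟩ : ∃ ε : ℝ, ε = -(vk w f) / vk w (c : k) := ⟨_, rfl⟩
  have hε0 : ε ≠ 0 := by
    rw [hε]
    exact div_ne_zero (neg_ne_zero.mpr hf0) hc0
  have hcC : (vk w (c : k) : ℂ) ≠ 0 := Complex.ofReal_ne_zero.mpr hc0
  have h6 : R * F * Rᴴ = (ε : ℂ) • Matrix.diagonal (fun i => (w (g i))⁻¹) := by
    rw [hG, hgst, ← hγ, hre, Matrix.mul_smul, Matrix.smul_mul, smul_smul] at h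
    have h7 : Q * (Pw * F * Pwᴴ) * Qᴴ = R * F * Rᴴ := by
      rw [hR, Matrix.conjTranspose_mul]
      simp only [Matrix.mul_assoc]
    rw [h7] at h
    have h8 := congrArg (fun m => (-(vk w (c : k) : ℂ) * γ)⁻¹ • m) h
    simp only [smul_smul] at h8
    rw [inv_mul_cancel₀ (mul_ne_zero (neg_ne_zero.mpr hcC) hγ0), one_smul] at h8
    rw [h8, hε]
    congr 1
    push_cast
    field_simp
  have hdet : R.det ≠ 0 := by
    intro h0
    have h7 := congrArg Matrix.det h6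
    rw [Matrix.det_mul, Matrix.det_mul, h0, zero_mul, zero_mul, Matrix.det_smul,
      Matrix.det_diagonal] at h7
    refine mul_ne_zero (pow_ne_zero _ (Complex.ofReal_ne_zero.mpr hε0)) ?_ h7.symm
    exact Finset.prod_ne_zero_iff.mpr fun i _ => inv_ne_zero (hg i)
  have hRu : IsUnit R.det := isUnit_iff_ne_zero.mpr hdet
  refine ⟨ε, R⁻¹, hε0, ?_, ?_, ?_⟩
  · intro hb
    have h7 := hs hb
    have h8 : vk w (-(c * f)) = -(vk w (c : k) * vk w f) := by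
      apply Complex.ofReal_injective
      rw [← hre, map_neg, map_neg, map_mul, map_mul, hre, hre]
      push_cast
      rfl
    rw [h8] at h7
    rw [hε, neg_div, neg_pos, div_neg_iff]
    rcases lt_or_gt_of_ne hc0 with h9 | h9
    · left
      refine ⟨?_, h9⟩
      by_contra h10
      push Not at h10
      nlinarith
    · right
      refine ⟨?_, h9⟩
      by_contra h10
      push Not at h10
      nlinarith
  · exact (Matrix.isUnit_nonsing_inv_iff).mpr ((Matrix.isUnit_iff_isUnit_det _).mpr hRu)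
  · rw [← hF, ← h6, Matrix.conjTranspose_nonsing_inv]
    have hRH : IsUnit (Rᴴ).det := by
      rw [Matrix.det_conjTranspose]
      exact hRu.star
    calc R⁻¹ * (R * F * Rᴴ) * (Rᴴ)⁻¹ = (R⁻¹ * R) * F * (Rᴴ * (Rᴴ)⁻¹) := by
          simp only [Matrix.mul_assoc]
      _ = F := by
        rw [Matrix.nonsing_inv_mul _ hRu, Matrix.mul_nonsing_inv _ hRH, Matrix.one_mul,
          Matrix.mul_one]

end Vale.Agent.P011.E6X.H370
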