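import Vale.Agent.P011.E6X.H370.Move
import Vale.Agent.P011.E6X.H370.OppStd
import Vale.Agent.P011.E6X.DatT
import Vale.Agent.P011.E6X.SuRes
import Vale.Agent.P011.E6X.Trip

/-!
Every point with standard type on one of the two lines is moved to a standard point by an element
of the finite residual.
-/

open NumberField Matrix

namespace Vale.Agent.P011.E6X

open Vale.Agent.P011.MPQ Vale.Agent.P011.D4 Vale.Agent.P011.D4.Oct Vale.Agent.P011.E6
open Vale.Agent.P011.E6O Vale.Agent.P011.E6O.H370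
open Vale.Agent.P011.E6I (MQ toMQ)

variable {k E : Type} [Field k] [NumberField k] [Field E] [NumberField E] [Algebra k E]
  {ρ σ : E ≃ₐ[k] E} {lam : Eˣ} {g : Fin 3 → Eˣ} {al s : E} {a b c : kˣ}
  (H : Hyp ρ σ lam g al s a b c)

include H

/-- The common step. -/
theorem H370.core {f : k} (hf : f ≠ 0)
    (hs : ∀ w, SC σ w → vk w (b : k) < 0 → 0 < vk w (-(c * f)))
    {A : Submodule E (AlbL E a b c)} (hA : IsPt ρ lam A) (hI : A ≤ Iln c (ep al))
    (hT : Ty σ g f A) :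
    ∃ (n : AlbL E a b c ≃ₗ[E] AlbL E a b c) (M : (MQ E a b)ˣ) (κ : Qt a b),
      n ∈ Res ρ σ lam g a b c ∧ (∀ x, n x = Alb.act M 1 x) ∧
      (∀ x, n.symm x = Alb.act M⁻¹ 1 x) ∧ κ ≠ 0 ∧ nrd κ ≠ 0 ∧
      A.map (n : AlbL E a b c →ₗ[E] AlbL E a b c) =
        Apt (⟨0, ep al * qup E κ⟩ : OctL E a b c) := by
  obtain ⟨K, _, _, _, _, S, β, hS⟩ := H.exists_isDat
  obtain ⟨Z1, Z2, hZ1, hZ2, hne, hAx⟩ := exists_Z (c := c) (b := b) two_ne_zero H.al2 H.ρal
    (⟨H.ρ3, H.ρlam, lam.ne_zero, H.hlam⟩ : Cyc (ρ : E ≃+* E) (lam : E)) hA hI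
  have eu : E6I.u0 E S.lam = um lam := by
    have e : (up E S.lam : Eˣ) = lam := Units.ext hS.eqlam
    rw [E6I.u0, um, e]
  have hin : ∀ {Z : Matrix (Fin 3) (Fin 3) E}, InD0 ρ lam Z → E6I.InD0 S.ρ S.lam Z := by
    intro Z hZ
    rw [E6I.InD0, eu]
    rw [InD0] at hZ
    rw [hZ]
    congr 1
    ext i j
    rw [Matrix.map_apply, Matrix.map_apply, hS.eqρ]
  obtain ⟨z₁, hz₁⟩ : ∃ z : S.D, S.f z = Z1 := ⟨S.el (hin hZ1), S.f_el _⟩
  obtain ⟨z₂, hz₂⟩ : ∃ z : S.D, S.f z = Z2 := ⟨S.el (hin hZ2), S.f_el _⟩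
  obtain ⟨m, δ, κ₁, κ₂, hδ, hκ, hm, hnrm, e1, e2⟩ := hS.T z₁ z₂ (by
    rcases hne with h | h
    · exact Or.inl fun h0 => h (by rw [← hz₁, h0, map_zero])
    · exact Or.inr fun h0 => h (by rw [← hz₂, h0, map_zero])) (by
    intro w hw
    obtain ⟨ε, Q, h1, h2, h3, h4⟩ := H370.sgn_of (c := c) (b := b) two_ne_zero H.al2 H.σal
      (w := w) hw hf (hs w hw) (Z1 := Z1) (Z2 := Z2) (fun x hx => (hAx x).mp hx) (hT w hw)
    refine ⟨ε, Q, h1, h2, h3, ?_⟩
    rw [h4, ← hz₁, ← hz₂]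
    ext i j
    rw [Matrix.mul_diagonal, Matrix.map_apply, Matrix.map_apply,
      H370.f_form S hS.eqs hS.eqG hS.eqβ, map_mul, mul_assoc,
      mul_inv_cancel₀ ((map_ne_zero w).mpr (g j).ne_zero), mul_one])
  exact H370.move_of two_ne_zero H.al2 H.ρal H.σal H.hdiv (fun x hx => H.exists_kal hx) S
    hS.eqρ hS.eqs hS.eqlam hS.eqG hS.fix' hS.eqβ hS.β0
    (fun hm hu hn _ hφ => su_Res H hm hu hn hφ) hδ hκ hm hnrm e1 e2
    (fun x => by rw [hAx, hz₁, hz₂])

/-- Every point with standard type on the line `I` is moved to a standard point by an element of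
the finite residual. -/
theorem T {f : k} (hf : f ≠ 0)
    (hs : ∀ w, SC σ w → vk w (b : k) < 0 → 0 < vk w (-(c * f)))
    {A : Submodule E (AlbL E a b c)} (hA : IsPt ρ lam A) (hI : A ≤ Iln c (ep al))
    (hT : Ty σ g f A) :
    ∃ n ∈ Res ρ σ lam g a b c, ∃ w : Oct a b c, Perp w ∧
      A.map (n : AlbL E a b c →ₗ[E] AlbL E a b c) = Pw al w := by
  obtain ⟨n, M, κ, hn, -, -, hκ, hκn, h⟩ := H370.core H hf hs hA hI hT
  obtain ⟨u, hu⟩ := H64.isUnit_of_nrd hκn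
  have hcj : conjE E c u ∈ Res ρ σ lam g a b c := aut_Res H (conjC c u) (conjE_aup u)
  refine ⟨conjE E c u * n, Subgroup.mul_mem _ hcj hn, ⟨0, κ⟩, perp_snd hκ, ?_⟩
  have h6 := conj_Pw (c := c) al u
  rw [hu] at h6
  rw [← h6, ← h, ← Submodule.map_comp]
  rfl

/-- Every point with standard type on the opposite line is moved to a standard point, together
with its opposite point, by an element of the finite residual. -/
theorem Tm {f : k} (hf : f ≠ 0)
    (hs : ∀ w, SC σ w → vk w (b : k) < 0 → 0 < vk w (-(c * f)))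
    {U : Submodule E (AlbL E a b c)} (hU : IsPt ρ lam U) (hI : U ≤ Iln c (E6O.em al))
    (hT : Ty σ g f U) :
    ∃ n ∈ Res ρ σ lam g a b c, ∃ w : Oct a b c, Perp w ∧
      U.map (n : AlbL E a b c →ₗ[E] AlbL E a b c) = Pm al w ∧
      (opp σ g al U).map (n : AlbL E a b c →ₗ[E] AlbL E a b c) = Pw al w := by
  have hai : ai E a b c ∈ Res ρ σ lam g a b c := aut_Res H (autI a b c) ai_aup
  have hher : ∀ n ∈ Res ρ σ lam g a b c, ∀ x y, her σ g (n x) (n y) = her σ g x y := by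
    rintro _ ⟨n, -, rfl⟩ x y
    exact n.2.2.2 x y
  obtain ⟨m, M, κ, hm, hm1, hm2, hκ, hκn, h⟩ := H370.core H hf hs (ai_isPt hU) (ai_Iln hI) (by
    intro w hw
    obtain ⟨x, hx, Q, hQ, h⟩ := hT w hw
    refine ⟨fun i => ai E a b c (x i), fun i => ⟨x i, hx i, rfl⟩, Q, hQ, ?_⟩
    rw [← h]
    congr 2
    ext i j
    rw [gram, gram, Matrix.of_apply, Matrix.of_apply, hher _ hai])
  obtain ⟨n, hnm⟩ : ∃ n, n = ai E a b c * m * ai E a b c := ⟨_, rfl⟩
  have hn : n ∈ Res ρ σ lam g a b c := by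
    rw [hnm]
    exact Subgroup.mul_mem _ (Subgroup.mul_mem _ hai hm) hai
  have hUn : U.map (n : AlbL E a b c →ₗ[E] AlbL E a b c) =
      Apt (⟨0, E6O.em al * qup E (qi κ)⟩ : OctL E a b c) := by
    have h1 := ai_Apt (a := a) (b := b) (c := c) (⟨0, ep al * qup E κ⟩ : OctL E a b c)
    have h2 : oi (up E a) (up E b) (up E c) (⟨0, ep al * qup E κ⟩ : OctL E a b c) =
        ⟨0, E6O.em al * qup E (qi κ)⟩ := by
      rw [oi_apply]
      apply Oct.ext
      · exact qi_zero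
      · change qi (ep al * qup E κ) = _
        rw [qi_mul, qi_ep]
        congr 1
        simp only [qi, qup, map_neg]
    rw [h2, ← h] at h1
    rw [← h1, ← Submodule.map_comp, ← Submodule.map_comp, hnm]
    rfl
  have hκn' : nrd (qi κ) ≠ 0 := by
    have e : nrd (qi κ) = nrd κ := by
      simp only [nrd, qi]
      ring
    rw [e]
    exact hκn
  have hκ' : qi κ ≠ 0 := by
    intro h0
    apply hκ
    rw [← qi_qi κ, h0, qi_zero]
  have hopp := H370.opp_map_ai (σ := σ) (g := g) hm1 hm2 hnm (hher n hn) hI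
  rw [hUn, H370.opp_std two_ne_zero H.al2 H.σal hκn'] at hopp
  obtain ⟨u, hu⟩ := H64.isUnit_of_nrd hκn'
  have hcj : conjE E c u ∈ Res ρ σ lam g a b c := aut_Res H (conjC c u) (conjE_aup u)
  refine ⟨conjE E c u * n, Subgroup.mul_mem _ hcj hn, ⟨0, qi κ⟩, perp_snd hκ', ?_, ?_⟩
  · have h6 := conj_Pm (c := c) al u
    rw [hu] at h6
    rw [← h6, ← hUn, ← Submodule.map_comp]
    rfl
  · have h6 := conj_Pw (c := c) al u
    rw [hu] at h6
    rw [← h6, ← hopp, ← Submodule.map_comp]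
    rfl

end Vale.Agent.P011.E6X
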